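import Vale.Agent.P237.Quant.TailData.N77.tailN77P1Part0
import Vale.Agent.P237.Quant.TailData.N77.tailN77P1Part1
import Vale.Agent.P237.Quant.TailData.N77.tailN77P1Part2
import Vale.Agent.P237.Quant.TailData.N77.tailN77P1Part3
import Vale.Agent.P237.Quant.TailData.N77.tailN77P1Part4
import Vale.Agent.P237.Quant.TailData.N77.tailN77P1Part5

/-!
Tail calibration tailN77P1 in dimension 77. The check. Generated data, checked by the kernel.
-/

set_option maxRecDepth 100000
set_option linter.all false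

namespace Vale.Agent.P237.Quant.TailData

open TailCert


/-- The calibration. -/
noncomputable def tailN77P1 : Cfg :=
  tailN77P1Base.withIvals (List.flatten [tailN77P1L0, tailN77P1L1, tailN77P1L2, tailN77P1L3, tailN77P1L4, tailN77P1L5, tailN77P1L6, tailN77P1L7, tailN77P1L8, tailN77P1L9, tailN77P1L10, tailN77P1L11, tailN77P1L12, tailN77P1L13, tailN77P1L14, tailN77P1L15, tailN77P1L16, tailN77P1L17, tailN77P1L18, tailN77P1L19, tailN77P1L20])

theorem tailN77P1_parts : [tailN77P1L0, tailN77P1L1, tailN77P1L2, tailN77P1L3, tailN77P1L4, tailN77P1L5, tailN77P1L6, tailN77P1L7, tailN77P1L8, tailN77P1L9, tailN77P1L10, tailN77P1L11, tailN77P1L12, tailN77P1L13, tailN77P1L14, tailN77P1L15, tailN77P1L16, tailN77P1L17, tailN77P1L18, tailN77P1L19, tailN77P1L20].Forall fun l => tailN77P1Base.partUsed tailN77P1Used l = true := by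
  simp only [List.forall_cons, List.Forall]
  exact ⟨tailN77P1L0_ok, tailN77P1L1_ok, tailN77P1L2_ok, tailN77P1L3_ok, tailN77P1L4_ok, tailN77P1L5_ok, tailN77P1L6_ok, tailN77P1L7_ok, tailN77P1L8_ok, tailN77P1L9_ok, tailN77P1L10_ok, tailN77P1L11_ok, tailN77P1L12_ok, tailN77P1L13_ok, tailN77P1L14_ok, tailN77P1L15_ok, tailN77P1L16_ok, tailN77P1L17_ok, tailN77P1L18_ok, tailN77P1L19_ok, tailN77P1L20_ok⟩

theorem tailN77P1_check : tailN77P1.check = true :=
  Cfg.check_of_parts (by decide +kernel) tailN77P1_parts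

end Vale.Agent.P237.Quant.TailData
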