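import Vale.Agent.P237.Quant.TailPartsLink
import Vale.Agent.P237.Quant.RowTables
import Vale.Agent.P237.Quant.EnvelopeTableData.N76
import Vale.Agent.P237.Quant.TailData.N77.tailN77P0
import Vale.Agent.P237.Quant.TailData.N77.tailN77P1
import Vale.Agent.P237.Quant.TailData.N77.tailN77P2
import Vale.Agent.P237.Quant.TailData.N77.tailN77P3
import Vale.Agent.P237.Quant.TailData.N77.tailN77N0
import Vale.Agent.P237.Quant.TailData.N77.tailN77N1

/-!
The tail inequalities of the rows of both sides in dimension 77. Generated.
-/

namespace Vale.Agent.P237.Quant

open TailCert TailData

/-- The tail inequalities of `negRow14` in dimension 77. -/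
theorem negRow14_tailAt77 : negRow14.TailAt 76 := by
  intro P hP
  simp only [negRow14, binsOf, List.mem_cons, List.not_mem_nil, or_false] at hP
  rcases hP with rfl | rfl
  · exact tailBin_negParts tailN77N0_check tailN77N0_parts envTable77_check (by decide +kernel)
  · exact tailBin_negParts tailN77N1_check tailN77N1_parts envTable77_check (by decide +kernel)

/-- The tail inequalities of `posRow55` in dimension 77. -/
theorem posRow55_tailAt77 : posRow55.TailAt 76 := by
  intro P hP
  simp only [posRow55, posRowB, posCuts14, posCuts16, binsOf, List.mem_cons, List.not_mem_nil, or_false] at hP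
  rcases hP with rfl | rfl | rfl | rfl
  · exact tailBin_posParts tailN77P0_check tailN77P0_parts envTable77_check (by decide +kernel)
  · exact tailBin_posParts tailN77P1_check tailN77P1_parts envTable77_check (by decide +kernel)
  · exact tailBin_posParts tailN77P2_check tailN77P2_parts envTable77_check (by decide +kernel)
  · exact tailBin_posParts tailN77P3_check tailN77P3_parts envTable77_check (by decide +kernel)

end Vale.Agent.P237.Quant
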